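import Vale.Agent.P028.AS.Main

/-! # P028: weak inhomogeneous Duffin-Schaeffer for every shift, up to an arbitrarily small weight -/

open MeasureTheory

namespace Vale.Agent.Results.P028.AllShiftsLogEps

/-- For every real shift and every positive `ε`: divergence of
`∑ φ(q) ψ(q) / (q (1 + L_q) ^ ε)`, with `L_q = min (log q) (log⁺ (1 / ψ q))`, gives full measure. -/
theorem result (γ : ℝ) (ε : ℝ) (hε : 0 < ε) (ψ : ℕ → ℝ) (hψ : ∀ q, 0 ≤ ψ q)
    (hdiv : ¬ Summable fun q : ℕ => (Nat.totient q : ℝ) * ψ q /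
      ((q : ℝ) * (1 + min (Real.log q) (max 0 (Real.log (1 / ψ q)))) ^ ε)) :
    volume {x : ℝ | ¬ {q : ℕ | 0 < q ∧ ∃ a : ℤ, |(q : ℝ) * x - a - γ| < ψ q}.Infinite} = 0 :=
  Vale.P028AS.main γ ε hε ψ hψ hdiv

end Vale.Agent.Results.P028.AllShiftsLogEps
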