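import Vale.Agent.P028.Main

/-! # P028: inhomogeneous Duffin-Schaeffer under divisor-weighted divergence -/

open MeasureTheory

namespace Vale.Agent.Results.P028.DivisorWeighted

/-- Two parts. First: arbitrary moving shifts, full measure under divergence weighted by the
number of divisors. Second: the weak inhomogeneous Duffin-Schaeffer statement, for every shift,
when the support has boundedly many divisors. -/
theorem result :
    (∀ ψ γ : ℕ → ℝ, (∀ q, 0 ≤ ψ q) →
      ¬ Summable (fun q : ℕ =>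
        ψ q / ((q.divisors.card : ℝ) * (1 + Real.log q.divisors.card) ^ 2)) →
      volume {x : ℝ | ¬ {q : ℕ | 0 < q ∧ ∃ a : ℤ, |(q:ℝ) * x - a - γ q| < ψ q}.Infinite} = 0) ∧
    (∀ (γ : ℝ) (ψ : ℕ → ℝ) (K : ℕ), (∀ q, 0 ≤ ψ q) → (∀ q, ψ q ≠ 0 → q.divisors.card ≤ K) →
      ¬ Summable (fun q : ℕ => (Nat.totient q : ℝ) / q * ψ q) →
      volume {x : ℝ | ¬ {q : ℕ | 0 < q ∧ ∃ a : ℤ, |(q:ℝ) * x - a - γ| < ψ q}.Infinite} = 0) := by
  refine ⟨Vale.P028.full_measure, fun γ ψ K hψ hK hdiv =>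
    Vale.P028.full_measure ψ (fun _ => γ) hψ fun hs => hdiv ?_⟩
  set L : ℝ := (K:ℝ) * (1 + Real.log K) ^ 2 with hL
  refine Summable.of_nonneg_of_le (fun q => by have := hψ q; positivity) (fun q => ?_) (hs.mul_left L)
  rcases Nat.eq_zero_or_pos q with h | hq
  · subst h; simp
  by_cases h0 : ψ q = 0
  · simp [h0]
  have hqR : (0:ℝ) < q := by exact_mod_cast hq
  have hτ : (1:ℝ) ≤ q.divisors.card := by
    exact_mod_cast Finset.card_pos.mpr ⟨1, Nat.one_mem_divisors.mpr hq.ne'⟩
  have hτK : (q.divisors.card : ℝ) ≤ K := by exact_mod_cast hK q h0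
  have hl0 : 0 ≤ Real.log q.divisors.card := Real.log_nonneg hτ
  have hl : Real.log q.divisors.card ≤ Real.log K := Real.log_le_log (by linarith) hτK
  have hd : (q.divisors.card : ℝ) * (1 + Real.log q.divisors.card) ^ 2 ≤ L := by
    rw [hL]; gcongr
  have hpos : 0 < (q.divisors.card : ℝ) * (1 + Real.log q.divisors.card) ^ 2 := by positivity
  have h1 : (Nat.totient q : ℝ) / q ≤ 1 := by
    rw [div_le_one hqR]; exact_mod_cast Nat.totient_le q
  calc (Nat.totient q : ℝ) / q * ψ q ≤ 1 * ψ q := mul_le_mul_of_nonneg_right h1 (hψ q)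
    _ ≤ L * (ψ q / ((q.divisors.card : ℝ) * (1 + Real.log q.divisors.card) ^ 2)) := by
      rw [one_mul, mul_div_assoc', le_div_iff₀ hpos, mul_comm (L)]
      exact mul_le_mul_of_nonneg_left hd (hψ q)

end Vale.Agent.Results.P028.DivisorWeighted
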