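import Vale.Agent.P028.EV.Main

/-! # P028: the inhomogeneous weak Duffin-Schaeffer statement for small radii -/

open MeasureTheory

namespace Vale.Agent.Results.P028.ErdosVaalerAllShifts

/-- For every shift and every radius function bounded by a multiple of `1/q`, divergence of the
totient-weighted sum gives full measure. -/
theorem result :
    ∀ (γ : ℝ) (ψ : ℕ → ℝ) (K : ℝ), (∀ q, 0 ≤ ψ q) → (∀ q : ℕ, 0 < q → ψ q ≤ K / q) →
      ¬ Summable (fun q : ℕ => (Nat.totient q : ℝ) / q * ψ q) →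
      volume {x : ℝ | ¬ {q : ℕ | 0 < q ∧ ∃ a : ℤ, |(q:ℝ) * x - a - γ| < ψ q}.Infinite} = 0 :=
  fun γ ψ K hψ hK hdiv => Vale.P028EV.main γ ψ K hψ
    (fun q => (Nat.eq_zero_or_pos q).elim Or.inr (fun h => Or.inl (hK q h))) hdiv

end Vale.Agent.Results.P028.ErdosVaalerAllShifts
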